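import Vale.Agent.P144D.H.Sec.Plus
import Vale.Agent.P144Z.R5.Geom

/-!
Contour sums in a region without outer bonds.
-/

namespace Vale.Agent.P144Z.DH1

open Finset Vale.Agent.P144

variable {M : ℕ} [NeZero M]

theorem vma_step {j : ZMod M} {K : ℕ} (hj : j.valMinAbs.natAbs ≤ K) (hM : 2 * (K + 1) < M) :
    xor (decide (0 ≤ j.valMinAbs)) (decide (0 ≤ (j - 1).valMinAbs)) = decide (j = 0) := by
  have e : (j - 1).valMinAbs = j.valMinAbs - 1 := by
    have h : j - 1 = ((j.valMinAbs - 1 : ℤ) : ZMod M) := by simp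
    rw [h, G.vma_cast]
    rw [Int.abs_eq_natAbs]
    omega
  rw [e]
  by_cases h : j = 0
  · simp [h]
  · have h' : j.valMinAbs ≠ 0 := fun h' => h (ZMod.valMinAbs_eq_zero j |>.1 h')
    rcases lt_or_gt_of_ne h' with h1 | h1
    · rw [decide_eq_false (by omega), decide_eq_false (by omega), decide_eq_false h]
      rfl
    · rw [decide_eq_true (by omega), decide_eq_true (by omega), decide_eq_false h]
      rfl

/-- Near the origin the straight cycles are domain walls. -/
theorem exists_dom_cyc {K : ℕ} (hM : 2 * (K + 1) < M) (θ : Bool × Bool) :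
    ∃ τ : Tor M → Bool, ∀ e : Tor M × Fin 2, tdist e.1 0 ≤ K → dom τ e = cyc θ e := by
  refine ⟨fun u => xor (θ.1 && decide (0 ≤ u.2.valMinAbs)) (θ.2 && decide (0 ≤ u.1.valMinAbs)),
    ?_⟩
  rintro ⟨⟨i, j⟩, d⟩ he
  simp only [tdist, lft, sub_zero, max_le_iff] at he
  have h1 := vma_step he.1 hM
  have h2 := vma_step he.2 hM
  fin_cases d
  · show xor (xor (θ.1 && decide (0 ≤ j.valMinAbs)) (θ.2 && decide (0 ≤ i.valMinAbs)))
      (xor (θ.1 && decide (0 ≤ (j - 1).valMinAbs)) (θ.2 && decide (0 ≤ (i - 0).valMinAbs))) =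
      (θ.1 && decide (j = 0))
    rw [← h2, sub_zero]
    cases θ.1 <;> cases θ.2 <;> cases decide (0 ≤ i.valMinAbs) <;> simp
  · show xor (xor (θ.1 && decide (0 ≤ j.valMinAbs)) (θ.2 && decide (0 ≤ i.valMinAbs)))
      (xor (θ.1 && decide (0 ≤ (j - 0).valMinAbs)) (θ.2 && decide (0 ≤ (i - 1).valMinAbs))) =
      (θ.2 && decide (i = 0))
    rw [← h1, sub_zero]
    cases θ.1 <;> cases θ.2 <;> cases decide (0 ≤ j.valMinAbs) <;> simp

/-- The signed sum of a function of the edges near the origin. -/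
theorem sum_cw_loc {K : ℕ} (hM : 2 * (K + 1) < M) {G : (Tor M × Fin 2 → Bool) → ℝ}
    (hG : BoxLoc K G) : ∑ n, cw n * G n = -∑ σ : Tor M → Bool, G (dom σ) := by
  have h := I1.sum_cw G
  have key : ∀ θ, ∑ σ : Tor M → Bool, G (fun e => xor (dom σ e) (cyc θ e)) =
      ∑ σ : Tor M → Bool, G (dom σ) := by
    intro θ
    obtain ⟨τ, hτ⟩ := exists_dom_cyc hM θ
    rw [← Equiv.sum_comp (Function.Involutive.toPerm
      (fun (s : Tor M → Bool) x => xor (s x) (τ x)) fun s => by simp) fun σ => G (dom σ)]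
    refine sum_congr rfl fun σ _ => hG _ _ fun e he => ?_
    rw [← hτ e he]
    show xor (xor (σ e.1) (σ (oth e))) (xor (τ e.1) (τ (oth e))) =
      xor (xor (σ e.1) (τ e.1)) (xor (σ (oth e)) (τ (oth e)))
    cases σ e.1 <;> cases σ (oth e) <;> cases τ e.1 <;> cases τ (oth e) <;> rfl
  simp only [key, smul_eq_mul, Fintype.sum_prod_type, Fintype.sum_bool] at h
  simp at h
  linarith

open Classical in
/-- The weight of a set of edges for the free boundary condition. -/
noncomputable def wF (q : Par) (I : Finset (Tor M)) (n : Tor M × Fin 2 → Bool) : ℝ :=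
  (∏ e, if n e = true ∧ e.1 ∈ I ∧ oth e ∈ I then q.x else 1) *
    Real.exp (∑ y : Tor M, ∑ B ∈ (potSets q.R).filter (fun B => ∀ b ∈ B, y + prj M b ∈ I),
      q.μ * q.V B / B.card * spinFn B (I1.see y n))

theorem wF_pos {q : Par} (hx : 0 < q.x) (I : Finset (Tor M)) (n : Tor M × Fin 2 → Bool) :
    0 < wF q I n := by
  refine mul_pos (prod_pos fun e _ => ?_) (Real.exp_pos _)
  split_ifs
  · exact hx
  · exact one_pos

open Classical in
theorem sum_cor (q : Par) (I : Finset (Tor M)) (n : Tor M × Fin 2 → Bool) :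
    ∑ X, (⟨I, true⟩ : Reg M).cor q X n =
      (∑ e, if n e = true ∧ ¬ (e.1 ∈ I ∧ oth e ∈ I) then Real.log (tc / q.x) else 0) -
      ∑ y : Tor M, ∑ B ∈ (potSets q.R).filter (fun B => ¬ ∀ b ∈ B, y + prj M b ∈ I),
        q.μ * q.V B / B.card * spinFn B (I1.see y n) := by
  simp only [Reg.cor, if_true, sum_sub_distrib, sum_filter]
  refine congrArg₂ (· - ·) ?_ ?_
  · rw [sum_comm]
    refine sum_congr rfl fun e _ => ?_
    simp only [and_comm (b := _ = _), ite_and, sum_ite_eq', mem_univ, if_true]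
    split_ifs <;> rfl
  · rw [sum_comm]
    refine sum_congr rfl fun y _ => ?_
    rw [sum_comm]
    refine sum_congr rfl fun B _ => ?_
    refine (sum_eq_single (((hull B).image fun v => y + prj M v : Finset (Tor M)))
      (fun X _ hX => if_neg ?_) fun h => absurd (mem_univ _) h).trans (if_congr ?_ rfl rfl)
    · exact fun h => hX h.1.symm
    · exact ⟨fun h h' => h.2 (image_subset_iff.2 h'),
        fun h => ⟨rfl, fun h' => h (image_subset_iff.1 h')⟩⟩

theorem wt_free {q : Par} (hx : 0 < q.x) (I : Finset (Tor M)) (n : Tor M × Fin 2 → Bool) :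
    wt (⟨I, true⟩ : Reg M).pw q.x n *
      Real.exp (uint q n + ∑ X, (⟨I, true⟩ : Reg M).cor q X n) = wF q I n := by
  classical
  rw [sum_cor, ← add_sub_assoc, add_comm (uint q n), add_sub_assoc, Real.exp_add, ← mul_assoc]
  refine congrArg₂ (· * ·) ?_ (congrArg Real.exp ?_)
  · rw [Real.exp_sum, wt, ← prod_mul_distrib]
    refine prod_congr rfl fun e _ => ?_
    by_cases h1 : n e = true
    · by_cases h2 : e.1 ∈ I ∧ oth e ∈ I
      · simp [Reg.pw, h1, h2]
      · simp only [Reg.pw, h1, h2, if_true, if_false, true_and, not_false_iff]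
        rw [Real.exp_log (div_pos I1.tc_pos hx)]
        field_simp
        linarith [tc_mul_tT]
    · simp [h1]
  · rw [show uint q n = ∑ y : Tor M, ∑ B ∈ potSets q.R,
      q.μ * q.V B / B.card * spinFn B (I1.see y n) from rfl, ← sum_sub_distrib]
    refine sum_congr rfl fun y _ => ?_
    rw [← sum_filter_add_sum_filter_not (potSets q.R) (fun B => ∀ b ∈ B, y + prj M b ∈ I),
      add_sub_cancel_right]

theorem pot_le {R : ℕ} {B : Finset (ℤ × ℤ)} (hB : B ∈ potSets R) {b : ℤ × ℤ} (hb : b ∈ B) :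
    |b.1| ≤ R ∧ |b.2| ≤ R := by
  unfold potSets at hB
  have h := mem_powerset.1 (mem_filter.1 hB).1 hb
  simpa only [mem_product, mem_Icc, abs_le] using h

theorem wF_loc (q : Par) {Λ : Finset (ℤ × ℤ)} {T : ℕ} (hΛ : ∀ x ∈ Λ, zd x 0 ≤ T)
    (hM : 2 * (T + q.R) < M) : BoxLoc (T + 1) (wF q (Λ.image (prj M))) := by
  classical
  intro n n' h
  unfold wF
  refine congrArg₂ (· * ·) (prod_congr rfl fun e _ => ?_) (congrArg Real.exp
    (sum_congr rfl fun y _ => sum_congr rfl fun B hB0 => congrArg (HMul.hMul _) ?_))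
  · by_cases he : e.1 ∈ Λ.image (prj M)
    · obtain ⟨v, hv, e1⟩ := mem_image.1 he
      rw [h e (e1 ▸ (H3.tdist_prj_zero v).trans ((hΛ v hv).trans (Nat.le_succ T)))]
    · simp [he]
  · obtain ⟨hB, hb⟩ := mem_filter.1 hB0
    have h0 : (0, 0) ∈ B := (mem_filter.1 hB).2
    obtain ⟨v, hv, e1⟩ := mem_image.1 (hb _ h0)
    rw [show prj M (0, 0) = 0 from I1.prj_zero M, add_zero] at e1
    subst e1
    have hv' := zd_le_iff.1 (hΛ v hv)
    have hb' : ∀ b ∈ B, |(v + b).1| ≤ T ∧ |(v + b).2| ≤ T := by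
      intro b hb'
      have h1 := pot_le hB hb'
      have h2 := hb b hb'
      rw [← I1.prj_add] at h2
      refine zd_le_iff.1 (hΛ _ ((mem_image_iff (K := T + q.R)
        (fun x hx => (hΛ x hx).trans (Nat.le_add_right _ _)) hM ?_).1 h2))
      simp only [zd_le_iff, abs_le, Prod.fst_add, Prod.snd_add] at h1 hv' ⊢
      omega
    refine R5.spinFn_congr fun e he _ => h (prj M v + prj M e.1, e.2) ?_
    rw [← I1.prj_add]
    refine (H3.tdist_prj_zero _).trans (zd_le_iff.2 ?_)
    obtain ⟨p, hp, he⟩ := mem_biUnion.1 he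
    have h1 := hb' _ (mem_product.1 hp).1
    have h2 := hb' _ (mem_product.1 hp).2
    simp only [abs_le, mem_product, mem_Icc, Prod.fst_add, Prod.snd_add] at h1 h2 he ⊢
    omega

/-- The contour sum without outer bonds is a sum over spins. -/
theorem ZwC_free {q : Par} (hx : 0 < q.x) {Λ : Finset (ℤ × ℤ)} {T : ℕ}
    (hΛ : ∀ x ∈ Λ, zd x 0 ≤ T) (hM : 4 * (T + q.R + 2) ≤ M) {Φ : (Tor M × Fin 2 → Bool) → ℝ}
    (hΦ : BoxLoc (T + 1) Φ) :
    ZwC q ((regOf M Λ true).cor q) (regOf M Λ true).pw Φ =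
      -∑ σ : Tor M → Bool, Φ (dom σ) * wF q (Λ.image (prj M)) (dom σ) := by
  rw [← sum_cw_loc (K := T + 1) (by omega) (G := fun n => Φ n * wF q (Λ.image (prj M)) n)
    fun n n' h => congrArg₂ (· * ·) (hΦ n n' h) (wF_loc q hΛ (by omega) n n' h)]
  refine sum_congr rfl fun n _ => ?_
  rw [← wt_free hx]
  show cw n * wt (⟨Λ.image (prj M), true⟩ : Reg M).pw q.x n *
    Real.exp (uint q n + ∑ X, (⟨Λ.image (prj M), true⟩ : Reg M).cor q X n) * Φ n = _
  ring

open Classical in
/-- The energy with free boundary condition as a sum over the sites. -/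
theorem energy_free (J lam : ℝ) {V : Finset Site → ℝ} (hV : IsPotential V) {R : ℕ}
    (hR : ∀ B, V B ≠ 0 → (0, 0) ∈ B → B ∈ potSets R) (Λ : Finset Site) (σ : Config)
    (s : Site → ℝ) (hs : ∀ x, s x = if x ∈ Λ then sp (σ x) else 0) :
    energy J lam V (fun A => A ⊆ Λ) σ = -∑ x ∈ Λ, (J / 2 * (s x * (s (x + (1, 0)) +
      s (x + (0, 1)) + s (x + (-1, 0)) + s (x + (0, -1)))) +
        ∑ B ∈ potSets R, lam * V B / B.card * ∏ b ∈ B, s (x + b)) := by
  simp only [← I1.finsum_site J lam hV hR]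
  unfold energy
  congr 1
  have h1 : ∀ A, A ⊆ Λ → ∏ y ∈ A, s y = ∏ y ∈ A, sp (σ y) := fun A hA =>
    prod_congr rfl fun y hy => by rw [hs, if_pos (hA hy)]
  have h2 : ∀ A, ¬ A ⊆ Λ → ∏ y ∈ A, s y = 0 := fun A hA => by
    obtain ⟨y, hy, hy'⟩ := not_subset.1 hA
    exact prod_eq_zero hy (by rw [hs, if_neg hy'])
  rw [finsum_cond_eq_sum_of_cond_iff _ (t := Λ.powerset) fun _ => mem_powerset.symm]
  have h3 : ∀ x, ∑ᶠ (A : Finset Site) (_ : x ∈ A), ((if IsEdge A then J else 0) + lam * V A) /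
      A.card * ∏ y ∈ A, s y = ∑ A ∈ Λ.powerset.filter (fun A => x ∈ A),
        ((if IsEdge A then J else 0) + lam * V A) / A.card * ∏ y ∈ A, s y := by
    intro x
    refine finsum_cond_eq_sum_of_cond_iff _ fun {A} hA => ?_
    rw [mem_filter, mem_powerset]
    exact ⟨fun h => ⟨by_contra fun h' => hA (by rw [h2 A h', mul_zero]), h⟩, fun h => h.2⟩
  simp only [h3, sum_filter]
  rw [sum_comm]
  refine sum_congr rfl fun A hA => ?_
  rw [← sum_filter, filter_mem_eq_inter, inter_eq_right.2 (mem_powerset.1 hA), sum_const,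
    nsmul_eq_mul, h1 A (mem_powerset.1 hA)]
  rcases A.eq_empty_or_nonempty with rfl | hne
  · rw [if_neg, hV.empty]
    · simp
    · rintro ⟨u, v, -, h⟩
      exact (insert_nonempty u {v}).ne_empty h.symm
  · have : (A.card : ℝ) ≠ 0 := Nat.cast_ne_zero.2 hne.card_pos.ne'
    field_simp

open Classical in
theorem exp_free {J lam β : ℝ} (q : Par) (hV : IsPotential q.V)
    (hR : ∀ B, q.V B ≠ 0 → (0, 0) ∈ B → B ∈ potSets q.R) (hμ : q.μ = β * lam)
    (hx : q.x = Real.exp (-(2 * β * J))) {T : ℕ} (Λ : Finset Site) (hΛ : ∀ x ∈ Λ, zd x 0 ≤ T)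
    (hM : 4 * (T + q.R + 2) ≤ M) : ∃ c : ℝ, ∀ σ : Tor M → Bool,
      wF q (Λ.image (prj M)) (dom σ) =
        Real.exp (-β * energy J lam q.V (fun A => A ⊆ Λ) (per M σ)) * Real.exp c := by
  refine ⟨∑ e : Tor M × Fin 2,
    if e.1 ∈ Λ.image (prj M) ∧ oth e ∈ Λ.image (prj M) then -(β * J) else 0, fun σ => ?_⟩
  set I := Λ.image (prj M) with hI
  let t : Tor M → ℝ := fun u => if u ∈ I then sp (σ u) else 0
  have hK : ∀ x ∈ Λ, zd x 0 ≤ T + q.R + 1 := fun x hx => (hΛ x hx).trans (by omega)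
  have ht : ∀ x ∈ Λ, ∀ b : Site, |b.1| ≤ q.R + 1 → |b.2| ≤ q.R + 1 →
      (if x + b ∈ Λ then sp (per M σ (x + b)) else 0) = t (prj M x + prj M b) := by
    intro x hx b h1 h2
    rw [← I1.prj_add]
    refine if_congr (mem_image_iff hK (by omega) ?_).symm rfl rfl
    have h3 := zd_le_iff.1 (hΛ x hx)
    simp only [zd_le_iff, abs_le, Prod.fst_add, Prod.snd_add] at h1 h2 h3 ⊢
    omega
  let f : Tor M → ℝ := fun y => J / 2 * (t y * (t (y + uv M 0) + t (y + uv M 1) +
    t (y - uv M 0) + t (y - uv M 1))) +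
      ∑ B ∈ potSets q.R, lam * q.V B / B.card * ∏ b ∈ B, t (y + prj M b)
  have e1 : energy J lam q.V (fun A => A ⊆ Λ) (per M σ) = -∑ y, f y := by
    rw [energy_free J lam hV hR Λ _ _ fun _ => rfl, ← sum_subset (subset_univ I), hI,
      sum_image fun u hu v hv e => prj_inj (hK u hu) (hK v hv) (by omega) e]
    · refine congrArg Neg.neg (sum_congr rfl fun x hx => congrArg₂ (· + ·) ?_
        (sum_congr rfl fun B hB => congrArg (_ * ·) (prod_congr rfl fun b hb => ?_)))
      · have h0 := ht x hx 0 (by simp; omega) (by simp; omega)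
        rw [add_zero, I1.prj_zero, add_zero] at h0
        rw [h0, ht x hx (1, 0) (by simp) (by simp; omega), ht x hx (0, 1) (by simp; omega)
          (by simp), ht x hx (-1, 0) (by simp) (by simp; omega),
          ht x hx (0, -1) (by simp; omega) (by simp)]
        have p0 : prj M (1, 0) = uv M 0 := by simp [prj, uv]
        have p1 : prj M (0, 1) = uv M 1 := by simp [prj, uv]
        have p2 : prj M (-1, 0) = -uv M 0 := by simp [prj, uv]
        have p3 : prj M (0, -1) = -uv M 1 := by simp [prj, uv]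
        rw [p0, p1, p2, p3, ← sub_eq_add_neg, ← sub_eq_add_neg]
      · have h1 := pot_le hB hb
        exact ht x hx b (by omega) (by omega)
    · intro y _ hy
      have h0 : t y = 0 := if_neg hy
      simp only [f, h0, zero_mul, mul_zero, zero_add]
      refine sum_eq_zero fun B hB => mul_eq_zero_of_right _
        (prod_eq_zero (mem_filter.1 hB).2 ?_)
      rwa [show prj M (0, 0) = 0 from I1.prj_zero M, add_zero]
  have sh : ∀ i, ∑ y : Tor M, t y * t (y + uv M i) = ∑ y : Tor M, t y * t (y - uv M i) := by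
    intro i
    rw [← Equiv.sum_comp (Equiv.subRight (uv M i))]
    refine sum_congr rfl fun y _ => ?_
    rw [Equiv.subRight_apply, sub_add_cancel, mul_comm]
  have e2 : ∑ y, f y = J * ∑ e : Tor M × Fin 2, t e.1 * t (oth e) +
      ∑ y, ∑ B ∈ potSets q.R, lam * q.V B / B.card * ∏ b ∈ B, t (y + prj M b) := by
    simp only [f]
    rw [sum_add_distrib, ← mul_sum]
    refine congrArg (· + _) ?_
    simp only [mul_add, sum_add_distrib, sh, Fintype.sum_prod_type, Fin.sum_univ_two, oth,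
      if_true, I1.uv_ne.symm, if_false]
    ring
  rw [e1, e2, neg_mul_neg, mul_add, Real.exp_add, mul_right_comm, wF]
  refine congrArg₂ (· * ·) ?_ (congrArg Real.exp ?_)
  · rw [← Real.exp_add, mul_sum, mul_sum, ← sum_add_distrib, Real.exp_sum]
    refine prod_congr rfl fun e _ => ?_
    by_cases h : e.1 ∈ I ∧ oth e ∈ I
    · have h1 : t e.1 * t (oth e) = sgn (dom σ e) := by
        simp only [t, if_pos h.1, if_pos h.2]
        exact (I1.sgn_dom σ e).symm
      rw [h1, if_pos h]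
      cases h2 : dom σ e
      · simp [sgn]
      · rw [if_pos ⟨rfl, h⟩, hx]
        exact congrArg Real.exp (by simp only [sgn, if_true]; ring)
    · have h1 : t e.1 * t (oth e) = 0 := by
        rcases not_and_or.1 h with h | h
        · simp only [t, if_neg h, zero_mul]
        · simp only [t, if_neg h, mul_zero]
      rw [h1, if_neg h, if_neg fun h' => h h'.2]
      simp
  · rw [mul_sum]
    refine sum_congr rfl fun y _ => ?_
    rw [mul_sum, sum_filter]
    refine sum_congr rfl fun B hB => ?_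
    split_ifs with h
    · by_cases h0 : q.V B = 0
      · simp [h0]
      · rw [I1.spinFn_dom σ y ⟨_, (mem_filter.1 hB).2⟩ (hV.even B h0), hμ,
          prod_congr rfl fun b hb => (if_pos (h b hb) :
            t (y + prj M b) = sp (σ (y + prj M b)))]
        ring
    · simp only [not_forall] at h
      obtain ⟨b, hb, hu'⟩ := h
      rw [prod_eq_zero hb (if_neg hu' : t (y + prj M b) = 0)]
      simp

theorem gibbs_free {J lam β : ℝ} (q : Par) (hV : IsPotential q.V)
    (hR : ∀ B, q.V B ≠ 0 → (0, 0) ∈ B → B ∈ potSets q.R) (hμ : q.μ = β * lam)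
    (hx : q.x = Real.exp (-(2 * β * J))) {T : ℕ} (Λ : Finset Site) (hΛ : ∀ x ∈ Λ, zd x 0 ≤ T)
    (hM : 4 * (T + q.R + 2) ≤ M) (F : Config → ℝ)
    (hF : ∀ σ σ', (∀ x ∈ Λ, σ x = σ' x) → F σ = F σ') :
    ∑ σ : Tor M → Bool, F (per M σ) * wF q (Λ.image (prj M)) (dom σ) =
      gibbs J lam q.V β none Λ F * ∑ σ : Tor M → Bool, wF q (Λ.image (prj M)) (dom σ) := by
  have hx0 : 0 < q.x := hx ▸ Real.exp_pos _
  obtain ⟨c, hc⟩ := exp_free q hV hR hμ hx Λ hΛ hM
  have hi : Set.InjOn (U1.red M) Λ := fun u hu v hv e =>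
    prj_inj (hΛ u hu) (hΛ v hv) (by omega) e
  rw [← U1.cond_sum (r := U1.red M) (Λ := Λ) hi (fun σ => wF q (Λ.image (prj M)) (dom σ))
    (fun s => F (per M s)) fun σ => wF_pos hx0 _ _, mul_sum]
  refine sum_congr rfl fun s _ => congrArg (· * _) ?_
  have h0 : ∀ T ∈ Λ.powerset, ∀ x ∈ Λ,
      per M (U1.upd (U1.red M) Λ s T) x = P144.ext Λ (fun _ => true) T x := fun T hT x hx => by
    rw [U1.per_upd Subset.rfl hi s (mem_powerset.1 hT) hx]
    simp only [P144.ext, if_pos hx]
  have h2 : ∀ T ∈ Λ.powerset, wF q (Λ.image (prj M)) (dom (U1.upd (U1.red M) Λ s T)) =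
      Real.exp (-β * energy J lam q.V (fun A => A ⊆ Λ) (P144.ext Λ (fun _ => true) T)) *
        Real.exp c := by
    intro T hT
    rw [hc]
    congr 3
    unfold energy
    exact congrArg Neg.neg (finsum_congr fun A => finsum_congr fun hA => congrArg (_ * ·)
      (prod_congr rfl fun x hx => by rw [h0 T hT x (hA hx)]))
  rw [sum_congr rfl fun T hT => by rw [hF _ _ (h0 T hT), h2 T hT, ← mul_assoc],
    sum_congr rfl h2, ← sum_mul, ← sum_mul, mul_div_mul_right _ _ (Real.exp_pos c).ne']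
  rfl

end Vale.Agent.P144Z.DH1
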