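import Vale.Agent.P144D.Defs
import Vale.Agent.P144Z.H3.Main
import Vale.Agent.P144Z.U1.Dlr

/-!
Contour sums in a region with removed outer edges.
-/

namespace Vale.Agent.P144Z.DH1

open Finset Vale.Agent.P144

variable {M : ℕ} [NeZero M]

theorem zd_le_iff {v : ℤ × ℤ} {K : ℕ} : zd v 0 ≤ K ↔ |v.1| ≤ K ∧ |v.2| ≤ K := by
  unfold zd
  simp only [Prod.fst_zero, Prod.snd_zero, sub_zero, max_le_iff, Int.abs_eq_natAbs]
  omega

omit [NeZero M] in
theorem prj_inj {u v : ℤ × ℤ} {K : ℕ} (hu : zd u 0 ≤ K) (hv : zd v 0 ≤ K) (hM : 2 * K < M)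
    (h : prj M u = prj M v) : u = v := by
  rw [zd_le_iff, abs_le, abs_le] at hu hv
  refine U1.red_inj (L := M) ?_ ?_ h <;> rw [abs_lt] <;> omega

omit [NeZero M] in
theorem mem_image_iff {Λ : Finset (ℤ × ℤ)} {K : ℕ} (hΛ : ∀ x ∈ Λ, zd x 0 ≤ K) (hM : 2 * K < M)
    {v : ℤ × ℤ} (hv : zd v 0 ≤ K) : prj M v ∈ Λ.image (prj M) ↔ v ∈ Λ := by
  refine ⟨fun h => ?_, mem_image_of_mem _⟩
  obtain ⟨u, hu, e⟩ := mem_image.1 h
  exact prj_inj (hΛ u hu) hv hM e ▸ hu

omit [NeZero M] in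
theorem cast_ne_half {a : ℤ} {T : ℕ} (ha : |a| ≤ T) (hM : 2 * (T + 1) ≤ M) :
    (a : ZMod M) ≠ ((M / 2 : ℕ) : ZMod M) := by
  intro h
  rw [← Int.cast_natCast, ZMod.intCast_eq_intCast_iff_dvd_sub] at h
  rw [abs_le] at ha
  have := Int.le_of_dvd (by omega) h
  omega

omit [NeZero M] in
/-- The seams are removed. -/
theorem sec_mul_pw {Λ : Finset (ℤ × ℤ)} {T : ℕ} (hΛ : ∀ x ∈ Λ, zd x 0 ≤ T) (hM : 2 * (T + 1) ≤ M)
    (θ : Bool × Bool) : sec M θ * (regOf M Λ false).pw = (regOf M Λ false).pw := by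
  have key : ∀ u ∈ Λ.image (prj M), u.1 ≠ ((M / 2 : ℕ) : ZMod M) ∧
      u.2 ≠ ((M / 2 : ℕ) : ZMod M) := by
    intro u hu
    obtain ⟨v, hv, rfl⟩ := mem_image.1 hu
    have := zd_le_iff.1 (hΛ v hv)
    exact ⟨cast_ne_half this.1 hM, cast_ne_half this.2 hM⟩
  funext e
  rw [Pi.mul_apply]
  by_cases h : e.1 ∈ Λ.image (prj M) ∨ oth e ∈ Λ.image (prj M)
  · have : sec M θ e = 1 := by
      unfold sec
      split_ifs with h0 h1 h1
      · rcases h with h | h
        · exact ((key _ h).1 h1.2).elim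
        · exact ((key _ h).1 (by simp [oth, uv, h0, h1.2])).elim
      · rfl
      · rcases h with h | h
        · exact ((key _ h).2 h1.2).elim
        · exact ((key _ h).2 (by simp [oth, uv, h0, h1.2])).elim
      · rfl
    rw [this, one_mul]
  · have : (regOf M Λ false).pw e = 0 := by
      simp only [Reg.pw, regOf, Bool.false_eq_true, if_false]
      exact if_neg h
    rw [this, mul_zero]

/-- The contour sum with removed outer edges is a sum over spins. -/
theorem Zw_plus {Λ : Finset (ℤ × ℤ)} {T : ℕ} (hΛ : ∀ x ∈ Λ, zd x 0 ≤ T) (hM : 2 * (T + 1) ≤ M)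
    (q : Par) (G : Gauge M) (Φ : (Tor M × Fin 2 → Bool) → ℝ) :
    Zw q ((regOf M Λ false).pw * G) Φ = 1 / 2 * ∑ σ : Tor M → Bool, wt G 1 (dom σ) *
      wt (regOf M Λ false).pw q.x (dom σ) * Real.exp (uint q (dom σ)) * Φ (dom σ) := by
  have h := I1.sum_Zw q ((regOf M Λ false).pw * G) Φ
  simp only [← mul_assoc, sec_mul_pw hΛ hM, sum_const, card_univ, Fintype.card_prod,
    Fintype.card_bool, nsmul_eq_mul] at h
  simp only [mul_comm (regOf M Λ false).pw G, I1.wt_mul] at h ⊢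
  push_cast at h
  linarith

/-- The spins agree across the removed edges. -/
def Cst (I : Finset (Tor M)) (σ : Tor M → Bool) : Prop :=
  ∀ e : Tor M × Fin 2, e.1 ∉ I → oth e ∉ I → σ e.1 = σ (oth e)

omit [NeZero M] in
theorem dom_eq_false {σ : Tor M → Bool} {e : Tor M × Fin 2} :
    dom σ e = false ↔ σ e.1 = σ (oth e) := by
  show xor (σ e.1) (σ (oth e)) = false ↔ _
  cases σ e.1 <;> cases σ (oth e) <;> simp

open Classical in
theorem wt_pw_plus (I : Finset (Tor M)) (x : ℝ) (σ : Tor M → Bool) :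
    wt (⟨I, false⟩ : Reg M).pw x (dom σ) = if Cst I σ then wt 1 x (dom σ) else 0 := by
  split_ifs with h
  · refine prod_congr rfl fun e _ => ?_
    split_ifs with he
    · have : e.1 ∈ I ∨ oth e ∈ I := by
        by_contra hn
        rw [not_or] at hn
        rw [dom_eq_false.2 (h e hn.1 hn.2)] at he
        exact Bool.false_ne_true he
      simp only [Reg.pw, Bool.false_eq_true, if_false, if_pos this, Pi.one_apply]
    · rfl
  · simp only [Cst, not_forall] at h
    obtain ⟨e, h1, h2, h3⟩ := h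
    refine prod_eq_zero (mem_univ e) ?_
    rw [← dom_eq_false, Bool.not_eq_false] at h3
    simp [Reg.pw, h1, h2, h3]

omit [NeZero M] in
theorem Cst.conn {I : Finset (Tor M)} {σ : Tor M → Bool} (h : Cst I σ) {u w : Tor M}
    (hc : OutConn I u w) : σ u = σ w := by
  have key : ∀ u i, u ∉ I → u + uv M i ∉ I → σ (u + uv M i) = σ u := by
    intro u i h1 h2
    have e : oth (u + uv M i, if i = 0 then 1 else 0) = u := by
      fin_cases i <;> simp [oth]
    have := h (u + uv M i, if i = 0 then 1 else 0) h2 (by rwa [e])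
    rwa [e] at this
  induction hc with
  | refl => rfl
  | tail _ h2 ih =>
    obtain ⟨h3, h4, i, rfl | rfl⟩ := h2
    · exact ih.trans (key _ i h3 h4).symm
    · exact ih.trans (key _ i h4 h3)

/-- The weight of a spin configuration of the torus. -/
noncomputable def wT (q : Par) (σ : Tor M → Bool) : ℝ :=
  wt 1 q.x (dom σ) * Real.exp (uint q (dom σ))

theorem wT_pos {q : Par} (hx : 0 < q.x) (σ : Tor M → Bool) : 0 < wT q σ :=
  mul_pos (I1.wt_pos hx _) (Real.exp_pos _)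

theorem hull_le {V : Finset Site → ℝ} (hV : IsPotential V) {R : ℕ}
    (hR : ∀ B, V B ≠ 0 → (0, 0) ∈ B → B ∈ potSets R) {y : Site} (hy : y ∈ U1.hull V) :
    |y.1| ≤ R + 1 ∧ |y.2| ≤ R + 1 := by
  obtain ⟨A, hA, hy⟩ := mem_biUnion.1 hy
  obtain ⟨h0, h1 | h1⟩ := (U1.mem_shapes hV).1 hA
  · have h2 := I1.mem_edges0.2 ⟨h1, h0.1⟩
    simp only [I1.edges0, mem_insert, mem_singleton] at h2
    rcases h2 with rfl | rfl | rfl | rfl <;> simp only [id, mem_insert, mem_singleton] at hy <;>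
      rcases hy with rfl | rfl <;> simp <;> omega
  · have h2 := mem_product.1 (mem_powerset.1 (mem_filter.1 (hR A h1 h0.1)).1 hy)
    simp only [mem_Icc] at h2
    rw [abs_le, abs_le]
    omega

theorem seen_le {V : Finset Site → ℝ} (hV : IsPotential V) {R T : ℕ}
    (hR : ∀ B, V B ≠ 0 → (0, 0) ∈ B → B ∈ potSets R) {Λ : Finset Site}
    (hΛ : ∀ x ∈ Λ, zd x 0 ≤ T) {y : Site} (hy : y ∈ U1.firsts V Λ ∪ (Λ ∪ U1.seen V Λ)) :
    zd y 0 ≤ T + 2 * (R + 1) := by
  have key : ∀ y ∈ U1.firsts V Λ, |y.1| ≤ T + (R + 1) ∧ |y.2| ≤ T + (R + 1) := by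
    intro y hy
    obtain ⟨⟨u, v⟩, h, rfl⟩ := mem_image.1 hy
    have h1 := zd_le_iff.1 (hΛ u (mem_product.1 h).1)
    have h2 := hull_le hV hR (mem_product.1 h).2
    simp only [abs_le, Prod.fst_sub, Prod.snd_sub] at h1 h2 ⊢
    omega
  rw [zd_le_iff]
  simp only [mem_union] at hy
  rcases hy with hy | hy | hy
  · have := key y hy
    simp only [abs_le] at this ⊢
    omega
  · have := zd_le_iff.1 (hΛ y hy)
    simp only [abs_le] at this ⊢
    omega
  · obtain ⟨⟨u, v⟩, h, rfl⟩ := mem_image.1 hy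
    have h1 := hull_le hV hR (mem_product.1 h).1
    have h2 := key v (mem_product.1 h).2
    simp only [abs_le, Prod.fst_add, Prod.snd_add] at h1 h2 ⊢
    omega

/-- The DLR equation on the torus, with a factor `g` that only depends on the outer spins. -/
theorem dlr_out {J lam β : ℝ} (q : Par) (hV : IsPotential q.V)
    (hR : ∀ B, q.V B ≠ 0 → (0, 0) ∈ B → B ∈ potSets q.R) (hμ : q.μ = β * lam)
    (hx : q.x = Real.exp (-(2 * β * J))) {T : ℕ} (Λ : Finset Site) (hΛ : ∀ x ∈ Λ, zd x 0 ≤ T)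
    (hM : 4 * (T + q.R + 2) ≤ M) (F : Config → ℝ)
    (hF : ∀ σ σ', (∀ x ∈ Λ, σ x = σ' x) → F σ = F σ') (g : (Tor M → Bool) → ℝ)
    (hg : ∀ s s', (∀ u, u ∉ Λ.image (prj M) → s u = s' u) → g s = g s') :
    ∑ s, g s * F (per M s) * wT q s =
      ∑ s, g s * gibbs J lam q.V β (some (per M s)) Λ F * wT q s := by
  have hi : Set.InjOn (U1.red M) (U1.firsts q.V Λ ∪ (Λ ∪ U1.seen q.V Λ) : Finset Site) :=
    fun u hu v hv e => prj_inj (seen_le hV hR hΛ hu) (seen_le hV hR hΛ hv) (by omega) e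
  have hΛ' : Λ ⊆ U1.firsts q.V Λ ∪ (Λ ∪ U1.seen q.V Λ) := fun x hx => by simp [hx]
  have hx0 : 0 < q.x := hx ▸ Real.exp_pos _
  have hc : 0 < Real.exp (β * J) ^ Fintype.card (Tor M × Fin 2) := by positivity
  have hw : ∀ s, wT q s = (Real.exp (β * J) ^ Fintype.card (Tor M × Fin 2))⁻¹ *
      Real.exp (-β * U1.tE J lam q.V M s) := fun s => by
    rw [← U1.energyT_eq hV, I1.exp_energyT q hV hR hμ (hx.trans (congrArg Real.exp (by ring))),
      inv_mul_cancel_left₀ hc.ne']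
    rfl
  rw [← U1.cond_sum (r := U1.red M) (Λ := Λ) (hi.mono (coe_subset.2 hΛ')) (wT q)
    (fun s => g s * F (per M s)) (wT_pos hx0)]
  refine sum_congr rfl fun s _ => ?_
  congr 1
  have h0 : ∀ T, g (U1.upd (U1.red M) Λ s T) = g s := fun T => hg _ _ fun u hu => if_neg hu
  have h1 : ∀ T ∈ Λ.powerset, F (per M (U1.upd (U1.red M) Λ s T)) = F (P144.ext Λ (per M s) T) :=
    fun T hT => hF _ _ fun x hx => U1.per_upd hΛ' hi s (mem_powerset.1 hT) (hΛ' hx)
  have h2 : ∀ T ∈ Λ.powerset, wT q (U1.upd (U1.red M) Λ s T) =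
      Real.exp (-β * energy J lam q.V (fun A => (A ∩ Λ).Nonempty) (P144.ext Λ (per M s) T)) *
        ((Real.exp (β * J) ^ Fintype.card (Tor M × Fin 2))⁻¹ *
          Real.exp (-β * U1.rest J lam q.V M Λ s)) := by
    intro T hT
    rw [hw, U1.tE_split hV J lam M Λ (hi.mono fun x hx => by simp [mem_coe.1 hx])
      (hi.mono (coe_subset.2 subset_union_right)), U1.rest_upd,
      U1.energy_meets_congr hV J lam Λ fun x hx =>
        U1.per_upd hΛ' hi s (mem_powerset.1 hT) (by simp [hx]), mul_add, Real.exp_add]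
    ring
  rw [sum_congr rfl fun T hT => by rw [h0, h1 T hT, h2 T hT, ← mul_assoc, mul_assoc (g s)],
    sum_congr rfl h2, ← sum_mul, ← sum_mul, mul_div_mul_right _ _ (by positivity), ← mul_sum,
    mul_div_assoc]
  rfl

/-- The boundary condition only matters outside the set, near the set. -/
theorem gibbs_out {J lam β : ℝ} {V : Finset Site → ℝ} (hV : IsPotential V) (Λ : Finset Site)
    (F : Config → ℝ) (hF : ∀ σ σ', (∀ x ∈ Λ, σ x = σ' x) → F σ = F σ') {η η' : Config}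
    (h : ∀ x ∈ U1.seen V Λ, x ∉ Λ → η x = η' x) :
    gibbs J lam V β (some η) Λ F = gibbs J lam V β (some η') Λ F := by
  have h1 : ∀ T, F (P144.ext Λ η T) = F (P144.ext Λ η' T) := fun T =>
    hF _ _ fun x hx => by simp only [P144.ext, if_pos hx]
  have h2 : ∀ T, energy J lam V (fun A => (A ∩ Λ).Nonempty) (P144.ext Λ η T) =
      energy J lam V (fun A => (A ∩ Λ).Nonempty) (P144.ext Λ η' T) := fun T =>
    U1.energy_meets_congr hV J lam Λ fun x hx => by
      unfold P144.ext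
      split_ifs with h3
      · rfl
      · exact h x hx h3
  simp only [gibbs, P144.expect, h1, h2]

theorem sum_flip (h : (Tor M → Bool) → ℝ) (hh : ∀ σ, h (fun x => !σ x) = h σ) (a : Tor M) :
    ∑ σ, h σ = 2 * ∑ σ, if σ a = true then h σ else 0 := by
  have e := Equiv.sum_comp (Function.Involutive.toPerm
    (fun (s : Tor M → Bool) x => !s x) fun s => by simp) fun σ => if σ a = true then h σ else 0
  rw [two_mul]
  nth_rewrite 1 [← e]
  rw [← sum_add_distrib]
  refine sum_congr rfl fun σ _ => ?_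
  show h σ = (if (!σ a) = true then h (fun x => !σ x) else 0) + _
  rw [hh]
  cases σ a <;> simp

theorem sum_holeG {H : ℕ} (a : ℤ × ℤ) (hs : Fin H → ℤ × ℤ) (σ : Tor M → Bool) :
    ∑ S, wt (holeG M a hs S) 1 (dom σ) =
      if ∀ i, σ (prj M (hs i)) = σ (prj M a) then 2 ^ H else 0 := by
  simp only [holeG, I1.wt_prod, I1.wt_strG_dom]
  rw [← powerset_univ, ← prod_one_add]
  split_ifs with h
  · simp only [h, I1.sp_mul_self]
    rw [prod_const, card_univ, Fintype.card_fin]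
    norm_num
  · simp only [not_forall] at h
    obtain ⟨i, hi⟩ := h
    refine prod_eq_zero (mem_univ i) ?_
    revert hi
    cases σ (prj M (hs i)) <;> cases σ (prj M a) <;> simp [sp]

theorem cor_plus (I : Finset (Tor M)) (q : Par) : (⟨I, false⟩ : Reg M).cor q = 0 := by
  funext X n
  simp [Reg.cor]

theorem ZwC_zero (q : Par) (A : Gauge M) (Φ : (Tor M × Fin 2 → Bool) → ℝ) :
    ZwC q 0 A Φ = Zw q A Φ := by
  simp [ZwC, Zw]

open Classical in
/-- The sum over the strings to the holes is the sum with all outer spins equal to one. -/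
theorem sum_plus {Λ : Finset (ℤ × ℤ)} {T : ℕ} (hΛ : ∀ x ∈ Λ, zd x 0 ≤ T) (hM : 2 * (T + 1) ≤ M)
    (q : Par) {H : ℕ} (a : ℤ × ℤ) (hs : Fin H → ℤ × ℤ) (ha : prj M a ∉ Λ.image (prj M))
    (hh : ∀ i, prj M (hs i) ∉ Λ.image (prj M))
    (hc : ∀ u, u ∉ Λ.image (prj M) → OutConn (Λ.image (prj M)) u (prj M a) ∨
      ∃ i, OutConn (Λ.image (prj M)) u (prj M (hs i))) (Φ : (Tor M × Fin 2 → Bool) → ℝ) :
    ∑ S, Zw q ((regOf M Λ false).pw * holeG M a hs S) Φ = 2 ^ H * ∑ σ : Tor M → Bool,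
      (if ∀ u, u ∉ Λ.image (prj M) → σ u = true then 1 else 0) * Φ (dom σ) * wT q σ := by
  simp only [Zw_plus hΛ hM]
  rw [← mul_sum, sum_comm]
  simp only [← sum_mul, sum_holeG]
  rw [sum_flip _ (fun σ => by simp only [I1.dom_not, Bool.not_inj_iff]) (prj M a), ← mul_assoc,
    one_div_mul_cancel two_ne_zero, one_mul, mul_sum]
  refine sum_congr rfl fun σ _ => ?_
  rw [show regOf M Λ false = ⟨Λ.image (prj M), false⟩ from rfl, wt_pw_plus]
  by_cases h : ∀ u, u ∉ Λ.image (prj M) → σ u = true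
  · rw [if_pos (h _ ha), if_pos fun i => (h _ (hh i)).trans (h _ ha).symm,
      if_pos (show Cst _ σ from fun e h1 h2 => (h _ h1).trans (h _ h2).symm), if_pos h, wT]
    ring
  · rw [if_neg h]
    split_ifs with h1 h2 h3
    · refine (h fun u hu => ?_).elim
      rcases hc u hu with h4 | ⟨i, h4⟩
      · exact (h3.conn h4).trans h1
      · exact (h3.conn h4).trans ((h2 i).trans h1)
    all_goals simp

theorem Zw_plus_pos {Λ : Finset (ℤ × ℤ)} {T : ℕ} (hΛ : ∀ x ∈ Λ, zd x 0 ≤ T)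
    (hM : 2 * (T + 1) ≤ M) {q : Par} (hx : 0 < q.x) : 0 < Zw q (regOf M Λ false).pw 1 := by
  classical
  have h := Zw_plus hΛ hM q (1 : Gauge M) 1
  rw [mul_one] at h
  rw [h, show regOf M Λ false = ⟨Λ.image (prj M), false⟩ from rfl]
  simp only [I1.wt_one, one_mul, Pi.one_apply, mul_one, wt_pw_plus]
  refine mul_pos (by norm_num) (sum_pos' (fun σ _ => ?_) ⟨fun _ => true, mem_univ _, ?_⟩)
  · split_ifs
    · exact (wT_pos hx σ).le
    · simp
  · rw [if_pos (show Cst _ _ from fun _ _ _ => rfl)]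
    exact wT_pos hx _

theorem gibbs_plus {J lam β : ℝ} (q : Par) (hV : IsPotential q.V)
    (hR : ∀ B, q.V B ≠ 0 → (0, 0) ∈ B → B ∈ potSets q.R) (hμ : q.μ = β * lam)
    (hx : q.x = Real.exp (-(2 * β * J))) {T : ℕ} (Λ : Finset Site) (hΛ : ∀ x ∈ Λ, zd x 0 ≤ T)
    (hM : 4 * (T + q.R + 2) ≤ M) {H : ℕ} (a : ℤ × ℤ) (hs : Fin H → ℤ × ℤ)
    (ha : prj M a ∉ Λ.image (prj M)) (hh : ∀ i, prj M (hs i) ∉ Λ.image (prj M))
    (hc : ∀ u, u ∉ Λ.image (prj M) → OutConn (Λ.image (prj M)) u (prj M a) ∨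
      ∃ i, OutConn (Λ.image (prj M)) u (prj M (hs i)))
    (F : Config → ℝ) (Φ : (Tor M × Fin 2 → Bool) → ℝ)
    (hF : ∀ σ σ', (∀ x ∈ Λ, σ x = σ' x) → F σ = F σ')
    (hΦ : ∀ s : Tor M → Bool, s (prj M a) = true → F (per M s) = Φ (dom s)) :
    gibbs J lam q.V β (some fun _ => true) Λ F = secE q (regOf M Λ false) a hs Φ := by
  classical
  have hx0 : 0 < q.x := hx ▸ Real.exp_pos _
  have e0 : (regOf M Λ false).cor q = 0 := cor_plus _ q
  unfold secE
  simp only [e0, ZwC_zero, sum_plus hΛ (by omega : 2 * (T + 1) ≤ M) q a hs ha hh hc]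
  set g : (Tor M → Bool) → ℝ := fun σ => if ∀ u, u ∉ Λ.image (prj M) → σ u = true then 1 else 0
    with hg
  have h1 : ∑ σ, g σ * Φ (dom σ) * wT q σ = ∑ σ, g σ * F (per M σ) * wT q σ := by
    refine sum_congr rfl fun σ _ => ?_
    simp only [hg]
    split_ifs with h
    · rw [hΦ σ (h _ ha)]
    · simp
  have h2 : ∑ σ, g σ * gibbs J lam q.V β (some (per M σ)) Λ F * wT q σ =
      gibbs J lam q.V β (some fun _ => true) Λ F * ∑ σ, g σ * 1 * wT q σ := by
    rw [mul_sum]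
    refine sum_congr rfl fun σ _ => ?_
    simp only [hg]
    split_ifs with h
    · rw [gibbs_out (η := per M σ) (η' := fun _ => true) hV Λ F hF fun x hx hx' =>
        h (prj M x) ?_]
      · ring
      · rwa [mem_image_iff (K := T + 2 * (q.R + 1)) (fun x hx => (hΛ x hx).trans (by omega))
          (by omega) (seen_le hV hR hΛ (by simp [hx]))]
    · simp
  have h3 : 0 < ∑ σ, g σ * 1 * wT q σ := by
    refine sum_pos' (fun σ _ => ?_) ⟨fun _ => true, mem_univ _, ?_⟩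
    · simp only [hg]
      split_ifs
      · simpa using (wT_pos hx0 σ).le
      · simp
    · simpa [hg] using wT_pos hx0 (M := M) fun _ => true
  change _ = (2 ^ H * ∑ σ, g σ * Φ (dom σ) * wT q σ) / (2 ^ H * ∑ σ, g σ * 1 * wT q σ)
  rw [h1, dlr_out q hV hR hμ hx Λ hΛ hM F hF g, h2, mul_div_mul_left _ _ (by positivity),
    mul_div_cancel_right₀ _ h3.ne']
  intro s s' h
  simp only [hg]
  exact if_congr (forall₂_congr fun u hu => by rw [h u hu]) rfl rfl

end Vale.Agent.P144Z.DH1
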